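import Claimed.Agent.R282.S2C.Conc
import Claimed.Agent.R282.S2AB.Top

/-!
# Row 282, Sec. 2: Prop 2.2 + blocker corollary, final form (glue only)
-/

set_option autoImplicit false

namespace Claimed.Agent.R282

/-- **Prop 2.2 (basic real schedule) + Cor (no strict third-axis obstruction)**, type `D`
(type `A` follows from type `D` by the central shift, see `Rep`/helper103). -/
theorem basicSchedule_pf : BasicSchedule Ty.D := by
  intro n lam mu xi θ hne hθ hsum hM
  subst hsum
  obtain ⟨D, hD⟩ := exists_datum n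
  -- move the end labels into the chamber
  obtain ⟨g, hg, hgl⟩ := D.exists_cham lam
  obtain ⟨g', hg', hgx⟩ := D.exists_cham xi
  obtain ⟨w₁, hw₁, e₁⟩ := (hD.W_iff g).1 hg
  obtain ⟨w₃, hw₃, e₃⟩ := (hD.W_iff g').1 hg'
  have hM' : Ty.D.Moment (g lam) θ.sum (g' xi) := by
    rw [e₁, e₃]
    exact (moment_weyl lam θ.sum xi w₁ w₃ hw₁ hw₃).2 hM
  have hθ' : ∀ v ∈ θ, D.Cham v := fun v hv => (hD.cham_iff v).2 (hθ v hv)
  apply hD.of_hasBasic
  apply D.basic_weyl hg hg'
  refine D.basic (fun a b c => Ty.D.Moment a b c) ?_ ?_ (g lam) (g' xi) θ hne hθ'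
    (D.cham_sum hθ') hgl hgx hM'
  · -- strict approximation
    intro a b c ha hb hc hm ε hε
    obtain ⟨a', b', c', h1, h2, h3, hcen, δ, hδ, hball⟩ :=
      moment_open_approx a b c ((hD.cham_iff a).1 ha) ((hD.cham_iff b).1 hb)
        ((hD.cham_iff c).1 hc) hm (ε / 2) (by positivity)
    have h0 := hball a' b' c' (by simpa using hδ) (by simpa using hδ) (by simpa using hδ) hcen
    have hpos : 0 < min δ (ε / 2) := lt_min hδ (by positivity)
    refine ⟨b', (hD.reg_iff b').2 h0.2.1, h2.trans (by linarith),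
      Metric.ball a' (min δ (ε / 2)) ×ˢ Metric.ball c' (min δ (ε / 2)),
      Metric.isOpen_ball.prod Metric.isOpen_ball,
      ⟨(a', c'), ⟨Metric.mem_ball_self hpos, Metric.mem_ball_self hpos⟩,
        (hD.central_iff _ _ _).2 hcen⟩, ?_⟩
    rintro ⟨x, z⟩ ⟨hx, hz⟩ hcen'
    simp only [Metric.mem_ball] at hx hz
    obtain ⟨r1, _, r3, hMom⟩ := hball x b' z (hx.trans_le (min_le_left _ _)) (by simpa using hδ)
      (hz.trans_le (min_le_left _ _)) ((hD.central_iff _ _ _).1 hcen')
    refine ⟨?_, ?_, (hD.reg_iff x).2 r1, (hD.reg_iff z).2 r3, hMom⟩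
    · calc dist x a ≤ dist x a' + dist a' a := dist_triangle _ _ _
        _ < ε / 2 + ε / 2 := add_lt_add (hx.trans_le (min_le_right _ _)) h1
        _ = ε := add_halves ε
    · calc dist z c ≤ dist z c' + dist c' c := dist_triangle _ _ _
        _ < ε / 2 + ε / 2 := add_lt_add (hz.trans_le (min_le_right _ _)) h3
        _ = ε := add_halves ε
  · -- decreasing paths
    intro a c θ' hne' hreg ha hc hm
    exact hD.hasDec_of (moment_decpath a c θ' hne' (fun v hv => (hD.reg_iff v).1 (hreg v hv))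
      (reg_dom _ ((hD.reg_iff a).1 ha)) (reg_dom _ ((hD.reg_iff c).1 hc)) hm)

end Claimed.Agent.R282
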