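import Claimed.Agent.R282.S2C.Tree

/-!
# Row 282, Sec. 2C: glue for the abstract datum

`RDatum.basic` : Prop 2.2 + blocker corollary for an abstract datum, from the contracts of
`Tree.lean` and the two outputs of layer 2B (as hypotheses `H1`, `H2`).
-/

set_option autoImplicit false

namespace Claimed.Agent.R282

namespace RDatum

variable {n : ℕ} (D : RDatum n)

/-- an unfolded area maximum in normal form exists -/
theorem exists_maxUnf {lam xi : Vec n} {θ : Shape n} (hθ : ∀ v ∈ θ, D.Reg v) (hlam : D.Reg lam)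
    (hxi : D.Reg xi) (h : D.HasDec lam θ xi) : ∃ u0 l, D.IsMaxUnf lam θ xi u0 l := by
  obtain ⟨u0, l, hdec, hmax⟩ := D.exists_max h
  obtain ⟨u0', l', hadm, hnf, hsf⟩ := D.unfold hθ hlam hxi hdec
  refine ⟨u0', l', hadm, hnf, ?_, ?_⟩
  · obtain ⟨g, hg, he⟩ := hsf θ.length (Nat.cast_nonneg _) le_rfl
    exact ⟨g, hg, by rw [he, hdec.endpoint]⟩
  · intro u1 l1 hadm1 hend1
    obtain ⟨u2, l2, hdec2, hsf2⟩ := D.fold hθ hlam.cham hxi.cham hadm1 hend1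
    rw [D.area_eq_of_sameFold hsf2, ← D.area_eq_of_sameFold hsf]
    exact hmax u2 l2 hdec2

/-- (GS) generic schedule: regular shape, open endpoint freedom -/
theorem generic_sched (θ : Shape n) (hne : θ ≠ []) (hθ : ∀ v ∈ θ, D.Reg v)
    (O : Set (Vec n × Vec n)) (hO : IsOpen O) (hO' : ∃ p ∈ O, D.Central p.1 θ.sum p.2)
    (hP : ∀ p ∈ O, D.Central p.1 θ.sum p.2 → D.Reg p.1 ∧ D.Reg p.2 ∧ D.HasDec p.1 θ p.2) :
    ∃ p ∈ O, D.Central p.1 θ.sum p.2 ∧ D.HasBasic p.1 θ p.2 := by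
  obtain ⟨F, hF, hgen⟩ := D.generic_family θ hθ
  obtain ⟨p, hpO, hpc, hpF⟩ := D.exists_generic F hF θ.sum O hO hO'
  obtain ⟨h1, h2, h3⟩ := hP p hpO hpc
  obtain ⟨u0, l, hM⟩ := D.exists_maxUnf hθ h1 h2 h3
  have hind := D.max_indep hθ hM
  obtain ⟨hspan, hoff⟩ := hgen p.1 p.2 hpF u0 l hM.adm.toIsIt hM.nf hM.endp hind
  have hcov := D.max_cover hθ hM hoff hspan
  exact ⟨p, hpO, hpc, D.basic_of_cover hθ hne hM.adm.toIsIt hM.nf hM.endp hcov hind⟩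

/-- **Prop 2.2 + blocker corollary for an abstract datum**, dominant end labels. -/
theorem basic (MC : Vec n → Vec n → Vec n → Prop)
    (H1 : ∀ lam mu xi : Vec n, D.Cham lam → D.Cham mu → D.Cham xi → MC lam mu xi →
      ∀ ε : ℝ, 0 < ε → ∃ mu' : Vec n, D.Reg mu' ∧ dist mu' mu < ε ∧
        ∃ O : Set (Vec n × Vec n), IsOpen O ∧ (∃ p ∈ O, D.Central p.1 mu' p.2) ∧
          ∀ p ∈ O, D.Central p.1 mu' p.2 →
            dist p.1 lam < ε ∧ dist p.2 xi < ε ∧ D.Reg p.1 ∧ D.Reg p.2 ∧ MC p.1 mu' p.2)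
    (H2 : ∀ (lam xi : Vec n) (θ : Shape n), θ ≠ [] → (∀ v ∈ θ, D.Reg v) → D.Reg lam →
      D.Reg xi → MC lam θ.sum xi → D.HasDec lam θ xi)
    (lam xi : Vec n) (θ : Shape n) (hne : θ ≠ []) (hθ : ∀ v ∈ θ, D.Cham v)
    (hmu : D.Cham θ.sum) (hlam : D.Cham lam) (hxi : D.Cham xi) (hM : MC lam θ.sum xi) :
    D.HasBasic lam θ xi := by
  apply D.basic_limit
  intro ε hε
  obtain ⟨δ, hδ, happ⟩ := D.shape_approx θ hne hθ ε hε
  obtain ⟨mu', hreg, hd, O, hO, hO', hall⟩ :=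
    H1 lam θ.sum xi hlam hmu hxi hM (min ε δ) (lt_min hε hδ)
  obtain ⟨θ', hlen, hθ', hsum, hnear⟩ := happ mu' hreg (hd.trans_le (min_le_right _ _))
  have hne' : θ' ≠ [] := by
    intro h0
    apply hne
    apply List.eq_nil_of_length_eq_zero
    rw [← hlen, h0]
    rfl
  subst hsum
  obtain ⟨p, hpO, hpc, hB⟩ := D.generic_sched θ' hne' hθ' O hO hO' (fun p hp hc => by
    obtain ⟨_, _, r1, r2, hm⟩ := hall p hp hc
    exact ⟨r1, r2, H2 p.1 p.2 θ' hne' hθ' r1 r2 hm⟩)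
  obtain ⟨d1, d2, _⟩ := hall p hpO hpc
  exact ⟨p.1, θ', p.2, d1.trans_le (min_le_left _ _), hlen, hnear,
    d2.trans_le (min_le_left _ _), hB⟩

end RDatum

end Claimed.Agent.R282
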