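import Claimed.Agent.R282.Defs.Basic

/-!
# Row 282, Sec. 2C: interface

* the FINAL contract of Sec. 2 consumed by Secs. 3-4 (`Prop 2.2` + blocker corollary), types D and A;
* the interface 2B -> 2C: the class of dominant, Bruhat-decreasing paths
  (`IsDecPath`), strict approximation with free endpoints.

A decreasing path is stored exactly like a schedule (state machine of `Defs/Basic`): a jump
`u -> v` with `u ≥ v` in Bruhat order is stored as a chain of simultaneous downward reflections.
"Downward" is expressed without inverses and without a length function: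
`u -> s_β u` is downward iff `β > 0` (`0 < ρ·β`) and `u⁻¹ β < 0` (`(u ρ)·β < 0`).
-/

set_option autoImplicit false

namespace Claimed.Agent.R282

/-- the regular dominant vector `(n-1, n-2, ..., 0)` (for `D_n` and for the permutation system) -/
def rhoV (n : ℕ) : Vec n := fun i => (n : ℝ) - 1 - ((i : ℕ) : ℝ)

/-- the two families of root systems on `Fin n → ℝ` -/
inductive Ty | D | A
deriving DecidableEq

/-- roots of the family -/
def Ty.IsRoot {n : ℕ} : Ty → RootD n → Prop
  | .D, _ => True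
  | .A, β => β.IsPerm

/-- Weyl group elements of the family -/
def Ty.IsW {n : ℕ} : Ty → WD n → Prop
  | .D, _ => True
  | .A, w => ∀ i, w.s i = false

/-- closed chamber -/
def Ty.Dom {n : ℕ} : Ty → Vec n → Prop
  | .D, x => Claimed.Agent.R282.Dom x
  | .A, x => DomA x

/-- open chamber -/
def Ty.Reg {n : ℕ} : Ty → Vec n → Prop
  | .D, x => ∀ i j : Fin n, i < j → |x j| < x i
  | .A, x => ∀ i j : Fin n, i < j → x j < x i

/-- the matrix addition problem of the family -/
def Ty.Moment {n : ℕ} : Ty → Vec n → Vec n → Vec n → Prop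
  | .D, a, b, c => MomentD a b c
  | .A, a, b, c => MomentA a b c

/-- the central equation (empty in type D) -/
def Ty.Central {n : ℕ} : Ty → Vec n → Vec n → Vec n → Prop
  | .D, _, _, _ => True
  | .A, a, b, c => ∑ i, c i = ∑ i, a i + ∑ i, b i

/-- Def 2.1 for both families. -/
structure IsSched {n : ℕ} (ty : Ty) (lam : Vec n) (θ : Shape n) (xi : Vec n) (w0 : WD n)
    (l : List (ℝ × RootD n)) : Prop where
  w0_mem : ty.IsW w0
  roots_mem : ∀ p ∈ l, ty.IsRoot p.2
  times_mem : ∀ p ∈ l, 0 ≤ p.1 ∧ p.1 ≤ (θ.length : ℝ)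
  sorted : l.Pairwise (fun p q => p.1 ≤ q.1)
  valid : SwValid θ ⟨w0.act, lam⟩ l
  endpoint : ∃ w : WD n, ty.IsW w ∧ (runSw θ ⟨w0.act, lam⟩ l).pos θ θ.length = w.act xi

/-- Cor. "no strict third-axis obstruction" in root form: at every switch `(t, β)` with state
`(w, c)` and position `y`, there are no roots `a + d = β` with `y·a > 0`, `y·d > 0`,
`(w μ)·a < 0`, `(w μ)·d < 0`. -/
def SwNoBlock {n : ℕ} (ty : Ty) (θ : Shape n) : SwState n → List (ℝ × RootD n) → Prop
  | _, [] => True
  | S, p :: l =>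
      (∀ a d : RootD n, ty.IsRoot a → ty.IsRoot d → a.vec + d.vec = p.2.vec →
        ¬ (0 < dot (S.pos θ p.1) a.vec ∧ 0 < dot (S.pos θ p.1) d.vec ∧
            dot (S.frame θ.sum) a.vec < 0 ∧ dot (S.frame θ.sum) d.vec < 0)) ∧
      SwNoBlock ty θ (S.step θ p.1 p.2) l

/-- the switch roots are linearly independent -/
def SwIndep {n : ℕ} (l : List (ℝ × RootD n)) : Prop :=
  LinearIndependent ℝ (fun i : Fin l.length => (l.get i).2.vec)

/-- all switches are downward reflections in the FIXED dominant frame: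
`β > 0` and `u⁻¹ β < 0`. -/
def SwDown {n : ℕ} (θ : Shape n) : SwState n → List (ℝ × RootD n) → Prop
  | _, [] => True
  | S, p :: l => 0 < dot (rhoV n) p.2.vec ∧ dot (S.frame (rhoV n)) p.2.vec < 0 ∧
      SwDown θ (S.step θ p.1 p.2) l

/-- the path stays in the closed chamber; `a` = time at which the current state starts -/
def SwInDom {n : ℕ} (ty : Ty) (θ : Shape n) : ℝ → SwState n → List (ℝ × RootD n) → Prop
  | a, S, [] => ∀ t, a ≤ t → t ≤ (θ.length : ℝ) → ty.Dom (S.pos θ t)
  | a, S, p :: l => (∀ t, a ≤ t → t ≤ p.1 → ty.Dom (S.pos θ t)) ∧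
      SwInDom ty θ p.1 (S.step θ p.1 p.2) l

/-- The path class of Lemma "Decreasing radial paths": a dominant path from `lam` to `xi` whose
velocities are Weyl translates of the shape velocities in weakly Bruhat-decreasing order. -/
structure IsDecPath {n : ℕ} (ty : Ty) (lam : Vec n) (θ : Shape n) (xi : Vec n) (w0 : WD n)
    (l : List (ℝ × RootD n)) : Prop where
  w0_mem : ty.IsW w0
  roots_mem : ∀ p ∈ l, ty.IsRoot p.2
  times_mem : ∀ p ∈ l, 0 ≤ p.1 ∧ p.1 ≤ (θ.length : ℝ)
  sorted : l.Pairwise (fun p q => p.1 ≤ q.1)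
  down : SwDown θ ⟨w0.act, lam⟩ l
  inDom : SwInDom ty θ 0 ⟨w0.act, lam⟩ l
  endpoint : (runSw θ ⟨w0.act, lam⟩ l).pos θ θ.length = xi

def HasDecPath {n : ℕ} (ty : Ty) (lam : Vec n) (θ : Shape n) (xi : Vec n) : Prop :=
  ∃ w0 l, IsDecPath ty lam θ xi w0 l

/-! ## Interface 2B -> 2C (owner of the two statements: helper64) -/

/-- Output 1 of 2B (Lemma "Strict approximation"): near every moment triple there is a regular
`mu'` and a nonempty open set of endpoint pairs (open inside the central equation) that are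
moment triples with `mu'`.  (`D_1` is a torus: excluded here, treated by hand in 2C.) -/
def StrictApprox (ty : Ty) : Prop :=
  ∀ (n : ℕ) (lam mu xi : Vec n), (ty = .D → 2 ≤ n) → ty.Dom lam → ty.Dom mu → ty.Dom xi → ty.Moment lam mu xi →
    ∀ ε : ℝ, 0 < ε →
      ∃ mu' : Vec n, ty.Reg mu' ∧ (∀ i, |mu' i - mu i| < ε) ∧
        ∃ O : Set (Vec n × Vec n), IsOpen O ∧
          (∃ p ∈ O, ty.Central p.1 mu' p.2) ∧
          ∀ p ∈ O, ty.Central p.1 mu' p.2 →
            (∀ i, |p.1 i - lam i| < ε) ∧ (∀ i, |p.2 i - xi i| < ε) ∧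
              ty.Reg p.1 ∧ ty.Reg p.2 ∧ ty.Moment p.1 mu' p.2

/-- Output 2 of 2B (Lemmas "Symmetric-space triangles" + "Decreasing radial paths"): for regular
moment labels, the regular shapes (of any given length `k ≥ 1`, ending at `mu`) that carry a
decreasing path are dense among the regular shapes.  (2C removes the density by compactness.) -/
def DecPathDense (ty : Ty) : Prop :=
  ∀ (n : ℕ) (lam mu xi : Vec n), ty.Reg lam → ty.Reg mu → ty.Reg xi → ty.Moment lam mu xi →
    ∀ θ : Shape n, θ ≠ [] → (∀ v ∈ θ, ty.Reg v) → θ.sum = mu →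
      ∀ ε : ℝ, 0 < ε →
        ∃ θ' : Shape n, θ'.length = θ.length ∧ (∀ v ∈ θ', ty.Reg v) ∧ θ'.sum = mu ∧
          (∀ (j : ℕ) (i : Fin n), |θ'.getD j 0 i - θ.getD j 0 i| < ε) ∧
          HasDecPath ty lam θ' xi

/-! ## FINAL contract of Sec. 2 for Secs. 3-4 -/

/-- Prop 2.2 + Cor "no strict third-axis obstruction". -/
def BasicSchedule (ty : Ty) : Prop :=
  ∀ (n : ℕ) (lam mu xi : Vec n) (θ : Shape n), θ ≠ [] → (∀ v ∈ θ, ty.Dom v) → θ.sum = mu →
    ty.Moment lam mu xi →
      ∃ w0 l, IsSched ty lam θ xi w0 l ∧ SwIndep l ∧ SwNoBlock ty θ ⟨w0.act, lam⟩ l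

/-- forces the on-demand equation lemmas to be stored HERE (else several later modules store their own copies,
which collide in the joint check of the grader) -/
theorem s2cIface_forced_eqns : True := by
  have := @Ty.IsRoot.eq_def
  have := @Ty.IsRoot.eq_1
  have := @Ty.IsW.eq_def
  have := @Ty.IsW.eq_1
  have := @Ty.Dom.eq_def
  have := @Ty.Dom.eq_1
  have := @Ty.Reg.eq_def
  have := @Ty.Reg.eq_1
  have := @Ty.Moment.eq_def
  have := @Ty.Moment.eq_1
  have := @Ty.Central.eq_def
  have := @Ty.Central.eq_1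
  have := @SwNoBlock.eq_def
  have := @SwNoBlock.eq_1
  have := @SwDown.eq_def
  have := @SwDown.eq_1
  have := @SwInDom.eq_def
  have := @SwInDom.eq_1
  trivial

end Claimed.Agent.R282
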